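import Vale.Agent.Lib.P050.Final

open scoped BigOperators

namespace Vale.Agent.Results.P050.DenseGraph

/-- The general inequality for a graph, through its adjacency weight. -/
lemma graph_ineq {V : Type*} [Fintype V] [DecidableEq V] [Nonempty V] (G : SimpleGraph V)
    [DecidableRel G.Adj] (p : ℝ) (hp : p = 2 * (G.edgeFinset.card : ℝ) / (Fintype.card V : ℝ) ^ 2)
    (hp0 : 0 < p) (n : ℕ)
    (hn : (1 / p ≤ 2 ∧ 1 ≤ n ∧ (1 / p / 3) ^ n * (1 / p) ^ 4 ≤ 5 / 2) ∨
      (1 / p / 3) ^ n * (1 / p) ^ 4 ≤ 2 / 3) :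
    p ^ (3 * (n + 4)) * ((Fintype.card V : ℝ) ^ 2) ^ (n + 4) ≤
      (((Finset.univ : Finset ((Fin (n + 4) → V) × (Fin (n + 4) → V))).filter (fun z =>
        ∀ i, G.Adj (z.1 i) (z.2 i) ∧ G.Adj (z.1 i) (z.2 (i + 1)) ∧ G.Adj (z.1 (i + 1)) (z.2 i))).card : ℝ) := by
  classical
  set W : V → V → ℝ := fun x y => if G.Adj x y then 1 else 0 with hW
  have hcard0 : (0 : ℝ) < Fintype.card V := by exact_mod_cast Fintype.card_pos
  have hW0 : ∀ x y, 0 ≤ W x y := by
    intro x y; simp only [hW]; split_ifs <;> norm_num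
  have hW1 : ∀ x y, W x y ≤ 1 := by
    intro x y; simp only [hW]; split_ifs <;> norm_num
  have hdeg : ∀ x, ∑ y, W x y = (G.degree x : ℝ) := by
    intro x
    simp only [hW]
    rw [Finset.sum_boole, ← SimpleGraph.card_neighborFinset_eq_degree,
      SimpleGraph.neighborFinset_eq_filter]
  have hmean : ∑ x, ∑ y, W x y = p * ((Fintype.card V : ℝ) * (Fintype.card V : ℝ)) := by
    simp only [hdeg]
    have h1 := G.sum_degrees_eq_twice_card_edges
    have h2 : ∑ x, (G.degree x : ℝ) = 2 * (G.edgeFinset.card : ℝ) := by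
      exact_mod_cast h1
    rw [h2, hp]
    field_simp
  have hM : ∀ x y, W x y ≤ (1 / p) * p := by
    intro x y
    have : (1 / p) * p = 1 := by field_simp
    rw [this]
    exact hW1 x y
  have hmain := P050Local.gauge_scaled W hW0 p (1 / p) hp0 hmean hM n hn
  have hcount : (∑ x : Fin (n + 4) → V, ∑ y : Fin (n + 4) → V, ∏ i,
        (W (x i) (y i) * W (x i) (y (i + 1)) * W (x (i + 1)) (y i))) =
      (((Finset.univ : Finset ((Fin (n + 4) → V) × (Fin (n + 4) → V))).filter (fun z =>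
        ∀ i, G.Adj (z.1 i) (z.2 i) ∧ G.Adj (z.1 i) (z.2 (i + 1)) ∧ G.Adj (z.1 (i + 1)) (z.2 i))).card : ℝ) := by
    rw [← Finset.sum_boole, Fintype.sum_prod_type]
    refine Finset.sum_congr rfl fun x _ => Finset.sum_congr rfl fun y _ => ?_
    by_cases h : ∀ i, G.Adj (x i) (y i) ∧ G.Adj (x i) (y (i + 1)) ∧ G.Adj (x (i + 1)) (y i)
    · rw [if_pos h]
      refine Finset.prod_eq_one fun i _ => ?_
      obtain ⟨h1, h2, h3⟩ := h i
      simp [hW, h1, h2, h3]
    · rw [if_neg h]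
      push Not at h
      obtain ⟨i, hi⟩ := h
      refine Finset.prod_eq_zero (Finset.mem_univ i) ?_
      by_cases h1 : G.Adj (x i) (y i)
      · by_cases h2 : G.Adj (x i) (y (i + 1))
        · have h3 := hi h1 h2
          simp [hW, h3]
        · simp [hW, h2]
      · simp [hW, h1]
  rw [hcount] at hmain
  have e : ((Fintype.card V : ℝ) * (Fintype.card V : ℝ)) = (Fintype.card V : ℝ) ^ 2 := by ring
  rwa [e] at hmain

/-- Every graph of edge density at least `0.67` satisfies the Sidorenko inequality for every ladder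
`H_k`, `k ≥ 5`; every graph of density `p > 1 / 3` satisfies it for all long ladders. Here `H_k` has
vertices `x i, y i` (`i` mod `k`) and edges `x i y i`, `x i y (i+1)`, `x (i+1) y i`: for odd `k` it is
the Moebius ladder on `2 k` vertices, and `H_5` is `K_{5,5}` minus a `10`-cycle. -/
theorem result {V : Type*} [Fintype V] [DecidableEq V] [Nonempty V] (G : SimpleGraph V)
    [DecidableRel G.Adj] (p : ℝ) (hp : p = 2 * (G.edgeFinset.card : ℝ) / (Fintype.card V : ℝ) ^ 2) :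
    (∀ n : ℕ, 67 / 100 ≤ p →
      p ^ (3 * (n + 5)) * ((Fintype.card V : ℝ) ^ 2) ^ (n + 5) ≤
        (((Finset.univ : Finset ((Fin (n + 5) → V) × (Fin (n + 5) → V))).filter (fun z =>
          ∀ i, G.Adj (z.1 i) (z.2 i) ∧ G.Adj (z.1 i) (z.2 (i + 1)) ∧
            G.Adj (z.1 (i + 1)) (z.2 i))).card : ℝ)) ∧
    (∀ n : ℕ, 0 < p → (1 / (3 * p)) ^ n * (1 / p) ^ 4 ≤ 2 / 3 →
      p ^ (3 * (n + 4)) * ((Fintype.card V : ℝ) ^ 2) ^ (n + 4) ≤
        (((Finset.univ : Finset ((Fin (n + 4) → V) × (Fin (n + 4) → V))).filter (fun z =>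
          ∀ i, G.Adj (z.1 i) (z.2 i) ∧ G.Adj (z.1 i) (z.2 (i + 1)) ∧
            G.Adj (z.1 (i + 1)) (z.2 i))).card : ℝ)) := by
  constructor
  · intro n hp67
    have hp0 : 0 < p := by linarith
    have hM : 1 / p ≤ 100 / 67 := by
      rw [div_le_div_iff₀ hp0 (by norm_num)]
      linarith
    have hM0 : 0 ≤ 1 / p := by positivity
    have hM3 : 1 / p / 3 ≤ 1 := by
      rw [div_le_one (by norm_num)]
      linarith
    have h1 : (1 / p / 3) ^ (n + 1) ≤ 1 / p / 3 := by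
      rw [pow_succ]
      have : (1 / p / 3) ^ n ≤ 1 := pow_le_one₀ (by positivity) hM3
      have h2 : 0 ≤ 1 / p / 3 := by positivity
      nlinarith
    have h2 : (1 / p) ^ 4 ≤ (100 / 67 : ℝ) ^ 4 := pow_le_pow_left₀ hM0 hM 4
    have h3 : (1 / p / 3) ^ (n + 1) * (1 / p) ^ 4 ≤ (100 / 67 / 3) * (100 / 67 : ℝ) ^ 4 := by
      have h4 : 1 / p / 3 ≤ 100 / 67 / 3 := by linarith
      exact mul_le_mul (h1.trans h4) h2 (by positivity) (by norm_num)
    have h5 : ((100 : ℝ) / 67 / 3) * (100 / 67 : ℝ) ^ 4 ≤ 5 / 2 := by norm_num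
    exact graph_ineq G p hp hp0 (n + 1)
      (Or.inl ⟨by linarith, by omega, h3.trans h5⟩)
  · intro n hp0 h
    have e : 1 / (3 * p) = 1 / p / 3 := by field_simp
    rw [e] at h
    exact graph_ineq G p hp hp0 n (Or.inr h)

end Vale.Agent.Results.P050.DenseGraph
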