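import Vale.Agent.Lib.P050.Final

open scoped BigOperators

namespace Vale.Agent.Results.P050.DenseW

/-- Sidorenko inequality for the ladders `H_k` on all weights bounded by `M` times their average.
Let `W ≥ 0` on a finite product `X × Y` have average `d > 0` and `W ≤ M d`. Put `k = n + 4`.
If either `M ≤ 2`, `n ≥ 1`, `(M / 3) ^ n * M ^ 4 ≤ 5 / 2`, or `(M / 3) ^ n * M ^ 4 ≤ 2 / 3`, then the
homomorphism sum of `H_k` (edges `x i y i`, `x i y (i+1)`, `x (i+1) y i`, indices mod `k`) is at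
least `d ^ (3 k) * (|X| |Y|) ^ k`. -/
theorem result {X Y : Type*} [Fintype X] [Fintype Y] [Nonempty X] [Nonempty Y]
    (W : X → Y → ℝ) (hW0 : ∀ x y, 0 ≤ W x y) (d M : ℝ) (hd : 0 < d)
    (hmean : ∑ x, ∑ y, W x y = d * ((Fintype.card X : ℝ) * (Fintype.card Y : ℝ)))
    (hM : ∀ x y, W x y ≤ M * d) (n : ℕ)
    (hn : (M ≤ 2 ∧ 1 ≤ n ∧ (M / 3) ^ n * M ^ 4 ≤ 5 / 2) ∨ (M / 3) ^ n * M ^ 4 ≤ 2 / 3) :
    d ^ (3 * (n + 4)) * ((Fintype.card X : ℝ) * (Fintype.card Y : ℝ)) ^ (n + 4) ≤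
      ∑ x : Fin (n + 4) → X, ∑ y : Fin (n + 4) → Y, ∏ i,
        (W (x i) (y i) * W (x i) (y (i + 1)) * W (x (i + 1)) (y i)) :=
  P050Local.gauge_scaled W hW0 d M hd hmean hM n hn

end Vale.Agent.Results.P050.DenseW
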