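import Vale.Agent.Lib.P050.Bal

open scoped BigOperators

namespace Vale.Agent.Results.P050.LocalBal

/-- Sidorenko inequality for long ladders on weights whose three-walk counts are balanced on edges.
Let `W ≥ 0` on a finite product `X × Y` have average `d > 0` and `W ≤ M d`. Suppose that for every
`(x, y)` with `W x y > 0`, the weighted number of three-walks from `x` to `y`, times the total mass
of `W`, is at most `3 κ` times the four-cycle homomorphism sum. Then the ladder `H_k` with `k = n + 4`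
satisfies the Sidorenko inequality as soon as `κ ^ n * M ^ 4 ≤ 2 / 3`. -/
theorem result {X Y : Type*} [Fintype X] [Fintype Y] [Nonempty X] [Nonempty Y]
    (W : X → Y → ℝ) (hW0 : ∀ x y, 0 ≤ W x y) (d M κ : ℝ) (hd : 0 < d) (hκ : 0 ≤ κ)
    (hmean : ∑ x, ∑ y, W x y = d * ((Fintype.card X : ℝ) * (Fintype.card Y : ℝ)))
    (hM : ∀ x y, W x y ≤ M * d)
    (hbal : ∀ x y, 0 < W x y →
      (∑ x', ∑ y', W x y' * W x' y' * W x' y) * (∑ u, ∑ v, W u v) ≤
        3 * κ * ∑ u, ∑ v, ∑ u', ∑ v', W u v * W u v' * W u' v' * W u' v)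
    (n : ℕ) (hn : κ ^ n * M ^ 4 ≤ 2 / 3) :
    d ^ (3 * (n + 4)) * ((Fintype.card X : ℝ) * (Fintype.card Y : ℝ)) ^ (n + 4) ≤
      ∑ x : Fin (n + 4) → X, ∑ y : Fin (n + 4) → Y, ∏ i,
        (W (x i) (y i) * W (x i) (y (i + 1)) * W (x (i + 1)) (y i)) := by
  classical
  set N : ℝ := (Fintype.card X : ℝ) * (Fintype.card Y : ℝ) with hNdef
  have hN : 0 < N := by
    have h1 : (0 : ℝ) < Fintype.card X := by exact_mod_cast Fintype.card_pos
    have h2 : (0 : ℝ) < Fintype.card Y := by exact_mod_cast Fintype.card_pos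
    exact mul_pos h1 h2
  set W0 : X → Y → ℝ := fun x y => W x y / d with hW0def
  have hWeq : ∀ x y, W x y = d * W0 x y := fun x y => by
    simp only [hW0def]; field_simp
  have hW00 : ∀ x y, 0 ≤ W0 x y := fun x y => div_nonneg (hW0 x y) hd.le
  have hsum0 : ∑ x, ∑ y, W0 x y = N := by
    simp only [hW0def, ← Finset.sum_div]
    rw [hmean]; field_simp
  have hM0 : ∀ x y, W0 x y ≤ M := fun x y => by
    simp only [hW0def]
    rw [div_le_iff₀ hd]
    exact hM x y
  obtain ⟨x₀⟩ := ‹Nonempty X›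
  obtain ⟨y₀⟩ := ‹Nonempty Y›
  have hMnn : 0 ≤ M := (hW00 x₀ y₀).trans (hM0 x₀ y₀)
  have hpw : ∀ x y, (∑ x', ∑ y', W x y' * W x' y' * W x' y) = d ^ 3 * P050Local.pw W0 x y := by
    intro x y
    simp only [P050Local.pw, Finset.mul_sum]
    refine Finset.sum_congr rfl fun x' _ => Finset.sum_congr rfl fun y' _ => ?_
    rw [hWeq x y', hWeq x' y', hWeq x' y]
    ring
  have hI : (∑ u, ∑ v, ∑ u', ∑ v', W u v * W u v' * W u' v' * W u' v) =
      d ^ 4 * P050Local.I4 W0 := by
    simp only [P050Local.I4, Finset.mul_sum]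
    refine Finset.sum_congr rfl fun u _ => Finset.sum_congr rfl fun v _ =>
      Finset.sum_congr rfl fun u' _ => Finset.sum_congr rfl fun v' _ => ?_
    rw [hWeq u v, hWeq u v', hWeq u' v', hWeq u' v]
    ring
  have hbal0 : ∀ x y, 0 < W0 x y → P050Local.pw W0 x y * N ≤ 3 * κ * P050Local.I4 W0 := by
    intro x y hxy
    have hpos : 0 < W x y := by
      rw [hWeq]; exact mul_pos hd hxy
    have h := hbal x y hpos
    rw [hpw, hI, hmean] at h
    have hd4 : 0 < d ^ 4 := by positivity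
    have h2 : d ^ 4 * (P050Local.pw W0 x y * N) ≤ d ^ 4 * (3 * κ * P050Local.I4 W0) := by
      calc d ^ 4 * (P050Local.pw W0 x y * N) = d ^ 3 * P050Local.pw W0 x y * (d * N) := by ring
        _ ≤ 3 * κ * (d ^ 4 * P050Local.I4 W0) := h
        _ = _ := by ring
    exact le_of_mul_le_mul_left h2 hd4
  have hcore := P050Local.core_bal W0 N M κ hW00 hM0 hMnn hN hNdef hsum0 hκ hbal0 n hn
  have hrhs : (∑ x : Fin (n + 4) → X, ∑ y : Fin (n + 4) → Y, ∏ i,
        (W (x i) (y i) * W (x i) (y (i + 1)) * W (x (i + 1)) (y i))) =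
      d ^ (3 * (n + 4)) * ∑ x : Fin (n + 4) → X, ∑ y : Fin (n + 4) → Y, ∏ i,
        (W0 (x i) (y i) * W0 (x i) (y (i + 1)) * W0 (x (i + 1)) (y i)) := by
    rw [Finset.mul_sum]
    refine Finset.sum_congr rfl fun x _ => ?_
    rw [Finset.mul_sum]
    refine Finset.sum_congr rfl fun y _ => ?_
    have h3 : d ^ (3 * (n + 4)) = ∏ _i : Fin (n + 4), (d * d * d) := by
      rw [Finset.prod_const, Finset.card_univ, Fintype.card_fin, pow_mul]
      congr 1
      ring
    rw [h3, ← Finset.prod_mul_distrib]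
    refine Finset.prod_congr rfl fun i _ => ?_
    rw [hWeq (x i) (y i), hWeq (x i) (y (i + 1)), hWeq (x (i + 1)) (y i)]
    ring
  rw [hrhs]
  exact mul_le_mul_of_nonneg_left hcore (pow_nonneg hd.le _)

end Vale.Agent.Results.P050.LocalBal
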