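import Vale.Agent.Lib.P050.Core

open scoped BigOperators

namespace Vale.Agent.Results.P050.LocalSup

/-- Local Sidorenko inequality with an absolute constant for the Moebius ladders.
For a weight `W` on a finite product `X × Y` with average `d` and `|W - d| ≤ d / 4`, and every
`k = n + 5 ≥ 5`, the homomorphism sum of the cubic bipartite graph on `x i, y i` (`i` in `Z / k`)
with edges `x i y i`, `x i y (i+1)`, `x (i+1) y i` is at least `d ^ (3 k) * (|X| |Y|) ^ k`. -/
theorem result {X Y : Type*} [Fintype X] [Fintype Y] [Nonempty X] [Nonempty Y]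
    (W : X → Y → ℝ) (d : ℝ) (hd : 0 < d)
    (hmean : ∑ x, ∑ y, W x y = d * ((Fintype.card X : ℝ) * (Fintype.card Y : ℝ)))
    (hW : ∀ x y, |W x y - d| ≤ d / 4) (n : ℕ) :
    d ^ (3 * (n + 5)) * ((Fintype.card X : ℝ) * (Fintype.card Y : ℝ)) ^ (n + 5) ≤
      ∑ x : Fin (n + 5) → X, ∑ y : Fin (n + 5) → Y, ∏ i,
        (W (x i) (y i) * W (x i) (y (i + 1)) * W (x (i + 1)) (y i)) := by
  classical
  set N : ℝ := (Fintype.card X : ℝ) * (Fintype.card Y : ℝ) with hNdef
  have hN : 0 < N := by
    have h1 : (0 : ℝ) < Fintype.card X := by exact_mod_cast Fintype.card_pos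
    have h2 : (0 : ℝ) < Fintype.card Y := by exact_mod_cast Fintype.card_pos
    exact mul_pos h1 h2
  set W0 : X → Y → ℝ := fun x y => W x y / d with hW0
  have hWeq : ∀ x y, W x y = d * W0 x y := fun x y => by
    simp only [hW0]; field_simp
  have hsum0 : ∑ x, ∑ y, W0 x y = N := by
    simp only [hW0, ← Finset.sum_div]
    rw [hmean]; field_simp
  have hb0 : ∀ x y, |W0 x y - 1| ≤ 1 / 4 := by
    intro x y
    have h : W0 x y - 1 = (W x y - d) / d := by simp only [hW0]; field_simp
    rw [h, abs_div, abs_of_pos hd, div_le_iff₀ hd]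
    have := hW x y
    linarith
  have hcore := P050Local.core_sup W0 N (1 / 4) (by norm_num) (by norm_num) hN hNdef hsum0 hb0
    (by norm_num) (by norm_num) n
  have hrhs : (∑ x : Fin (n + 5) → X, ∑ y : Fin (n + 5) → Y, ∏ i,
        (W (x i) (y i) * W (x i) (y (i + 1)) * W (x (i + 1)) (y i))) =
      d ^ (3 * (n + 5)) * ∑ x : Fin (n + 5) → X, ∑ y : Fin (n + 5) → Y, ∏ i,
        (W0 (x i) (y i) * W0 (x i) (y (i + 1)) * W0 (x (i + 1)) (y i)) := by
    rw [Finset.mul_sum]
    refine Finset.sum_congr rfl fun x _ => ?_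
    rw [Finset.mul_sum]
    refine Finset.sum_congr rfl fun y _ => ?_
    have h3 : d ^ (3 * (n + 5)) = ∏ _i : Fin (n + 5), (d * d * d) := by
      rw [Finset.prod_const, Finset.card_univ, Fintype.card_fin, pow_mul]
      congr 1
      ring
    rw [h3, ← Finset.prod_mul_distrib]
    refine Finset.prod_congr rfl fun i _ => ?_
    rw [hWeq (x i) (y i), hWeq (x i) (y (i + 1)), hWeq (x (i + 1)) (y i)]
    ring
  rw [hrhs]
  exact mul_le_mul_of_nonneg_left hcore (pow_nonneg hd.le _)

end Vale.Agent.Results.P050.LocalSup
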